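import Mathlib
import Vale.Agent.P066.Band
import Vale.Agent.P066.CertMain
import Vale.Agent.P066.Valid5

/-!
P066: elementary positivity in `ℕ[q]` of every coefficient indexed by a partition with parts at
most five, for every natural unit interval graph, and of all coefficients when `h i ≤ i + 2`.
-/

namespace Vale.Agent.Results.P066.PartsAtMostFive

open Finset Vale.Agent.P066

/-- (1) For every natural unit interval graph with `h i ≤ i + 2` the whole expansion has
coefficients in `ℕ[q]`, independent of the number of colours. (2) For every natural unit interval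
graph the chromatic quasisymmetric polynomial in five colours expands with coefficients in `ℕ[q]`,
and these are the coefficients of every such expansion at all partitions with parts at most five
(the elementary products with a larger part vanish in five variables). -/
theorem result :
    (∀ (n : ℕ) (h : Fin n → Fin n), Monotone h → (∀ i, i ≤ h i) →
      (∀ i, (h i : ℕ) ≤ (i : ℕ) + 2) →
      ∃ c : n.Partition → Polynomial ℕ, ∀ N : ℕ,
        (∑ f ∈ (univ : Finset (Fin n → Fin N)).filter
            (fun f => ∀ a b, a < b → b ≤ h a → f a ≠ f b),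
          MvPolynomial.C ((Polynomial.X : Polynomial ℤ) ^
            ((univ : Finset (Fin n × Fin n)).filter
              (fun p => p.1 < p.2 ∧ p.2 ≤ h p.1 ∧ f p.1 < f p.2)).card)
            * ∏ a, MvPolynomial.X (f a))
        = ∑ μ : n.Partition, MvPolynomial.C ((c μ).map (Nat.castRingHom ℤ))
            * MvPolynomial.esymmPart (Fin N) (Polynomial ℤ) μ)
    ∧ (∀ (n : ℕ) (h : Fin n → Fin n), Monotone h → (∀ i, i ≤ h i) →
      ∃ c : n.Partition → Polynomial ℕ,
        (∑ f ∈ (univ : Finset (Fin n → Fin 5)).filter
            (fun f => ∀ a b, a < b → b ≤ h a → f a ≠ f b),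
          MvPolynomial.C ((Polynomial.X : Polynomial ℤ) ^
            ((univ : Finset (Fin n × Fin n)).filter
              (fun p => p.1 < p.2 ∧ p.2 ≤ h p.1 ∧ f p.1 < f p.2)).card)
            * ∏ a, MvPolynomial.X (f a))
          = ∑ μ : n.Partition, MvPolynomial.C ((c μ).map (Nat.castRingHom ℤ))
              * MvPolynomial.esymmPart (Fin 5) (Polynomial ℤ) μ
        ∧ ∀ d : n.Partition → Polynomial ℤ,
          (∑ f ∈ (univ : Finset (Fin n → Fin 5)).filter
              (fun f => ∀ a b, a < b → b ≤ h a → f a ≠ f b),
            MvPolynomial.C ((Polynomial.X : Polynomial ℤ) ^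
              ((univ : Finset (Fin n × Fin n)).filter
                (fun p => p.1 < p.2 ∧ p.2 ≤ h p.1 ∧ f p.1 < f p.2)).card)
              * ∏ a, MvPolynomial.X (f a))
            = ∑ μ : n.Partition, MvPolynomial.C (d μ)
                * MvPolynomial.esymmPart (Fin 5) (Polynomial ℤ) μ →
          ∀ μ : n.Partition, (∀ k ∈ μ.parts, k ≤ 5) → d μ = (c μ).map (Nat.castRingHom ℤ)) := by
  refine ⟨fun n h h1 h2 h3 => band_expansion n h h1 h2 h3, fun n h hmono _ => ?_⟩
  obtain ⟨c, hc⟩ := Cert.expansion_of_cert Cert.N5.valid n h hmono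
  refine ⟨c, hc, fun d hd μ hμ => ?_⟩
  have h0 := Cert.var_unique 4 (fun ν => d ν - (c ν).map (Nat.castRingHom ℤ)) (by
    simp only [map_sub, sub_mul, sum_sub_distrib]
    rw [← hd, ← hc, sub_self]) μ hμ
  exact sub_eq_zero.1 h0

end Vale.Agent.Results.P066.PartsAtMostFive
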